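import Vale.Agent.Lib.P101.Main2

open Filter

namespace Vale.Agent.Results.P101.A_Z23

open Vale.Agent.Lib.P101

/-- For a unital separable C*-algebra `A` and a free ultrafilter `ω`, the central sequence algebra
`F_ω(A)` has no characters if and only if there is a unital star homomorphism from the dimension
drop algebra `Z_{2,3}` to `F_ω(A)`. -/
theorem result {A : Type*} [CStarAlgebra A] [TopologicalSpace.SeparableSpace A]
    (ω : Ultrafilter ℕ) (hω : (ω : Filter ℕ) ≤ cofinite) :
    IsEmpty (FωAlg A ω →⋆ₐ[ℂ] ℂ) ↔ Nonempty (Z23Alg →⋆ₐ[ℂ] FωAlg A ω) :=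
  ⟨exists_hom_of_no_char ω hω, fun ⟨Φ⟩ => no_char_of_hom (R := FωAlg A ω) Φ⟩

end Vale.Agent.Results.P101.A_Z23
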