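import Vale.Agent.Lib.P101.Main

open Filter

namespace Vale.Agent.Results.P101.A_main

open Vale.Agent.Lib.P101

/-- For a unital separable C*-algebra `A` and a free ultrafilter `ω`, the central sequence algebra
`F_ω(A)` has no characters if and only if it contains `t, s` with `t * t = 0`,
`star t * t + t * star t + star s * s = 1` and `star t * t * s = s`. -/
theorem result {A : Type*} [CStarAlgebra A] [TopologicalSpace.SeparableSpace A]
    (ω : Ultrafilter ℕ) (hω : (ω : Filter ℕ) ≤ cofinite) :
    IsEmpty (FωAlg A ω →⋆ₐ[ℂ] ℂ) ↔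
      ∃ t s : FωAlg A ω, t * t = 0 ∧ star t * t + t * star t + star s * s = 1 ∧ star t * t * s = s :=
  ⟨exists_generators ω hω, fun ⟨_, _, h1, h2, h3⟩ => no_char_of_generators h1 h2 h3⟩

end Vale.Agent.Results.P101.A_main
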